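import Vale.Agent.P146.Defs
import Vale.Agent.P146E.Main

/-! Two sided polynomial bounds for the typical fluctuations and for the variance of the SK free
energy at low temperature. -/

namespace Vale.Agent.Results.P146.Typical

open Vale.Agent.P146 MeasureTheory ProbabilityTheory

theorem result (β : ℝ) (hβ : 1 < β) : ∃ C : ℝ, ∀ ε : ℝ, 0 < ε → ∃ n0 : ℕ, ∀ n : ℕ, n0 ≤ n →
    MemLp (freeEn n β) 2 (disorder n) ∧
      (n : ℝ) ^ (1 / 62181 : ℝ) ≤ variance (freeEn n β) (disorder n) ∧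
      variance (freeEn n β) (disorder n) ≤ C * (n : ℝ) ^ (1 - 1 / 423 : ℝ) ∧
      (∀ a : ℝ, (disorder n).real {g | |freeEn n β g - a| ≤ (n : ℝ) ^ (1 / 62182 : ℝ)} ≤ ε) ∧
      (disorder n).real {g | (n : ℝ) ^ (1 / 2 - 1 / 847 : ℝ) ≤
        |freeEn n β g - ∫ h, freeEn n β h ∂disorder n|} ≤ ε := by
  obtain ⟨C, hC⟩ := Vale.Agent.P146.main (zero_lt_one.trans hβ)
  obtain ⟨n0, h0⟩ := Vale.Agent.P146L.main hβ
  refine ⟨C, fun ε hε => ?_⟩
  obtain ⟨n1, h1⟩ := Filter.eventually_atTop.1 ((Vale.Agent.P146E.lower hβ hε).and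
    (Vale.Agent.P146E.upper (zero_lt_one.trans hβ) hε))
  refine ⟨max (max n0 1) n1, fun n hn => ?_⟩
  have a := le_of_max_le_left hn
  exact ⟨(hC n (le_of_max_le_right a)).1, h0 n (le_of_max_le_left a),
    (hC n (le_of_max_le_right a)).2, h1 n (le_of_max_le_right hn)⟩

end Vale.Agent.Results.P146.Typical
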